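import Vale.Agent.P167.H259.S.Idx
import Vale.Agent.P167.XDL.Enl2

/-!
# P167, general `q`, [SEAM-34]: the outside configuration near a boundary site

`q` : a lattice polygon, `N` : the enlargement, `k` : the side of the tip; the polygon is read from the
middle of the side `k` on (free up to the middle of the side `m`, wired up to the middle of the side
`m + k`).
* `etaW_far` : the squares off the polygon at a site of the free arc are closed;
* `wr_PN` : the even sites of the wired arc are corners of open squares off the polygon.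
-/

set_option autoImplicit false

namespace Vale.Agent.P167.H259.S

open Vale.Agent.P167.E6 (IsPolygon Encloses dir face)
open Vale.Agent.P167.H825 (dirOf enl pdir)
open Vale.Agent.P167.Enl (PN qN PN_lin PN_add_l PN_succ PN_inj qN_nat dir0 dir1 dir2 dir3 pdir_step
  face0 face1 face2 face3)
open Vale.Agent.P167.FKA (Cor)
open Vale.Agent.P167.H718 (etaW mem_opW)
open Vale.Agent.P167.H72.SD (Wr)

variable {m : ℕ} {q : ZMod m → ℤ × ℤ} {S : Finset (ℤ × ℤ)} {N : ℕ}

/-- Rotation of the polygon. -/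
theorem PN_rot {k : ℕ} (hN : 0 < N) (t : ℕ) :
    PN (fun x => q (x + (k : ZMod m))) N t = PN q N (t + k * N) := by
  have ht := Nat.div_add_mod' t N
  have hr := Nat.mod_lt t hN
  set a := t / N
  set r := t % N
  rw [← ht, PN_lin hN hr, show a * N + r + k * N = (a + k) * N + r by ring, PN_lin hN hr]
  have e1 : ((a + k : ℕ) : ZMod m) = (a : ZMod m) + k := by push_cast; rfl
  have e2 : pdir (fun x => q (x + (k : ZMod m))) a = pdir q (a + k) := by
    unfold pdir
    rw [e1, add_right_comm]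
  rw [e1, e2]

/-- The sites of the rotated enlargement. -/
theorem qN_rot {k : ℕ} (hm : 0 < m) (hN : 0 < N) (j : ℕ) :
    qN (fun x => q (x + (k : ZMod m))) N (N / 2) (j : ZMod (m * N)) =
      PN q N (j + N / 2 + k * N) := by
  have : NeZero m := ⟨hm.ne'⟩
  rw [qN_nat hN, PN_rot hN]

theorem cor_abs {y s z : ℤ × ℤ} (hs : Cor y s) {r : Fin 4} (hz : y = face z r) :
    |(s - z).1| ≤ 1 ∧ |(s - z).2| ≤ 1 := by
  obtain ⟨h1, h2⟩ := hs
  rw [hz] at h1 h2
  rw [abs_le, abs_le, Prod.fst_sub, Prod.snd_sub]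
  fin_cases r
  · simp only [Fin.zero_eta, face0] at h1 h2; omega
  · simp only [Fin.mk_one, face1] at h1 h2; omega
  · simp only [Fin.reduceFinMk, face2] at h1 h2; omega
  · simp only [Fin.reduceFinMk, face3] at h1 h2; omega

/-- **The free arc.** -/
theorem etaW_far (hq : IsPolygon q) (hN : 4 ≤ N) {k i : ℕ} (hk : k ≤ m)
    (h1 : k * N + N / 2 + 2 ≤ i) (h2 : i + 2 ≤ m * N + N / 2) {y : ℤ × ℤ}
    (hy : Cor y (PN q N i)) :
    etaW (enl S N) (qN (fun x => q (x + (k : ZMod m))) N (N / 2)) ((m - k) * N) y = false := by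
  have hm := hq.1
  rw [Bool.eq_false_iff]
  intro h
  unfold etaW at h
  rw [decide_eq_true_iff, mem_opW] at h
  obtain ⟨⟨j, j1, j2, -, r, hr⟩, -⟩ := h
  rw [qN_rot (by omega) (by omega)] at hr
  obtain ⟨a1, a2⟩ := cor_abs hy hr
  obtain ⟨c, hc, h3⟩ := near_idx hq hN a1 a2 (i := i) (i' := j + N / 2 + k * N) (by abel)
  have h4 := idx_eq h3
  have e1 : (m - k) * N + k * N = m * N := by
    rw [← Nat.add_mul]
    congr 1
    omega
  obtain ⟨t, ht⟩ := h4
  rw [abs_le] at hc
  push_cast at ht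
  have h5 : ((m - k : ℕ) : ℤ) * N + k * N = m * N := by exact_mod_cast e1
  have h6 : ((m - k : ℕ) : ℤ) * N < j := by exact_mod_cast j1
  have h7 : (j : ℤ) < m * N := by exact_mod_cast j2
  have h8 : (k : ℤ) * N + (N / 2 : ℕ) + 2 ≤ i := by exact_mod_cast h1
  have h9 : (i : ℤ) + 2 ≤ m * N + (N / 2 : ℕ) := by exact_mod_cast h2
  have hN2 : ((N / 2 : ℕ) : ℤ) = (N : ℤ) / 2 := by simp
  rw [← hN2] at ht
  have hmN : (0 : ℤ) < m * N := by
    have : 0 < m * N := Nat.mul_pos (by omega) (by omega)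
    exact_mod_cast this
  have b1 : (m : ℤ) * N * t < 0 := by rw [← ht]; linarith
  have b2 : -((m : ℤ) * N) < m * N * t := by rw [← ht]; linarith
  have b3 : t < 0 := by
    by_contra hcon
    push Not at hcon
    have := mul_nonneg hmN.le hcon
    linarith
  have b4 : -1 < t := by
    by_contra hcon
    push Not at hcon
    have : (m : ℤ) * N * t ≤ m * N * (-1) := mul_le_mul_of_nonneg_left hcon hmN.le
    linarith
  omega

/-- **The wired arc**: the even sites are corners of open squares. -/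
theorem wr_PN (hq : IsPolygon q) (hS : Encloses q S) (hN : 4 ≤ N) {k i : ℕ} (hk : k ≤ m)
    (h1 : N / 2 ≤ i) (h2 : i + 2 ≤ k * N + N / 2)
    (hev : ((PN q N i).1 + (PN q N i).2) % 2 = 0) :
    ∃ y, y ∉ enl S N ∧
      etaW (enl S N) (qN (fun x => q (x + (k : ZMod m))) N (N / 2)) ((m - k) * N) y = true ∧
      Cor y (PN q N i) := by
  have hm := hq.1
  have hN0 : 0 < N := by omega
  have hne : NeZero m := ⟨by omega⟩
  obtain ⟨d, hd⟩ : ∃ d, d = pdir q (i / N) := ⟨_, rfl⟩
  have hs := PN_succ hN0 hq i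
  rw [← hd] at hs
  have henc := Enl.encloses_qN hN0 hq hS 0
  have hf := (henc (PN q N i) d).1 ⟨((i : ℕ) : ZMod (m * N)), by rw [qN_nat hN0, add_zero], by
    have e : ((i : ℕ) : ZMod (m * N)) + 1 = ((i + 1 : ℕ) : ZMod (m * N)) := by push_cast; rfl
    rw [e, qN_nat hN0, add_zero, hs]⟩
  have hf1 := hf.2
  obtain ⟨z, hz⟩ : ∃ z, z = PN q N i := ⟨_, rfl⟩
  rw [← hz] at hs hf1 hev ⊢
  have e1 : (m - k) * N + k * N = m * N := by
    rw [← Nat.add_mul]
    congr 1
    omega
  have hj : i + 1 + (m - k) * N - N / 2 + N / 2 + k * N = i + 1 + m * N := by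
    rw [← e1]
    omega
  have hq1 : qN (fun x => q (x + (k : ZMod m))) N (N / 2)
      ((i + 1 + (m - k) * N - N / 2 : ℕ) : ZMod (m * N)) = z + dir d := by
    rw [qN_rot (by omega) hN0, hj, PN_add_l hN0, hs]
  refine ⟨face z (d - 1), hf1, ?_, ?_⟩
  · unfold etaW
    rw [decide_eq_true_iff, mem_opW]
    refine ⟨⟨i + 1 + (m - k) * N - N / 2, by omega, by omega, ?_, ?_⟩, hf1⟩
    · rw [hq1, Int.even_iff]
      fin_cases d <;> simp [dir] <;> omega
    · rw [hq1]
      obtain ⟨x, y⟩ := z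
      fin_cases d
      · exact ⟨2, by simp [face, dir]⟩
      · exact ⟨3, by simp [face, dir]⟩
      · exact ⟨0, by simp [face, dir]⟩
      · exact ⟨1, by simp [face, dir]⟩
  · obtain ⟨x, y⟩ := z
    fin_cases d <;> simp [face, Cor]

end Vale.Agent.P167.H259.S
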