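import Vale.Agent.P167.QT.Defs
import Vale.Agent.P167.H713.Q.SeamD
import Vale.Agent.P167.H259.S.Arc0

/-!
# P167, general `q`, [SEAM-34]: the arcs of a shape in terms of the indices

`s - v₀ = PN P.q N i` is a boundary site of the shape. `arc_free` : on the free arc from the tip to `c`;
`arc_wired` : on the wired arc from the target to the tip.
-/

set_option autoImplicit false

namespace Vale.Agent.P167.H259.S

open Vale.Agent.P167.E6 (IsPolygon Encloses dir face)
open Vale.Agent.P167.H825 (dirOf enl pdir)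
open Vale.Agent.P167.Enl (PN qN PN_inj)
open Vale.Agent.P167.FKA (Cor)
open Vale.Agent.P167.H72.SD (Wr)
open Vale.Agent.P167.QT
open Vale.Agent.P167.H713.Q (Arc)

variable {P : Sh4} {ρ N : ℕ} {v₀ s : ℤ × ℤ} {i : ℕ}

theorem mem_dom {v : ℤ × ℤ} : v ∈ dom N v₀ P ↔ v - v₀ ∈ enl P.S N := by
  unfold dom
  rw [Finset.mem_image]
  constructor
  · rintro ⟨w, hw, rfl⟩
    simpa using hw
  · exact fun h => ⟨_, h, by simp⟩

theorem cor_sub {y : ℤ × ℤ} (h : Cor y s) (v : ℤ × ℤ) : Cor (y - v) (s - v) := by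
  obtain ⟨h1, h2⟩ := h
  refine ⟨?_, ?_⟩
  · simp only [Prod.fst_sub]; omega
  · simp only [Prod.snd_sub]; omega

/-- **The free arc.** -/
theorem arc_free (h : P.Ok ρ) (hN : 4 ≤ N) {WP : Set (ℤ × ℤ)} (hs : s - v₀ = PN P.q N i)
    (h1 : P.k * N + N / 2 + 2 ≤ i) (h2 : i ≤ P.j * N) :
    Arc true (dom N v₀ P) (ext N v₀ P) WP (arcc N v₀ P) s := by
  have a1 := h.k_lt
  have a2 := h.j_lt
  have a3 := h.l_lt
  have hmN : P.j * N ≤ P.m * N := Nat.mul_le_mul_right N (by omega)
  unfold Arc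
  rw [if_pos rfl]
  refine ⟨fun _ y _ hys => ?_, fun _ => ?_⟩
  · have h3 := etaW_far (S := P.S) h.poly hN (k := P.k) (i := i) (by omega) h1 (by omega)
      (y := y - v₀) (by rw [← hs]; exact cor_sub hys v₀)
    exact h3
  · exact ⟨i, by omega, h2, by rw [← hs, sub_add_cancel]⟩

/-- **The wired arc.** -/
theorem arc_wired (h : P.Ok ρ) (hN : 4 ≤ N) (hv : Even (v₀.1 + v₀.2)) (hs : s - v₀ = PN P.q N i)
    (h1 : N / 2 ≤ i) (h2 : i + 2 ≤ P.k * N + N / 2) :
    Arc false (dom N v₀ P) (ext N v₀ P) (Wr (dom N v₀ P) (ext N v₀ P)) (arcc N v₀ P) s := by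
  have a1 := h.k_lt
  have a2 := h.j_lt
  have a3 := h.l_lt
  have hmN : P.j * N ≤ P.m * N := Nat.mul_le_mul_right N (by omega)
  have hkN : P.k * N + N ≤ P.j * N := by
    have : (P.k + 1) * N ≤ P.j * N := Nat.mul_le_mul_right N (by omega)
    rwa [Nat.add_mul, one_mul] at this
  have hlt : P.j * N < P.m * N ∨ ρ = 0 := by
    rcases Nat.eq_zero_or_pos ρ with h3 | h3
    · exact Or.inr h3
    · left
      exact Nat.mul_lt_mul_of_pos_right (by omega) (by omega)
  rw [Int.even_iff] at hv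
  unfold Arc
  rw [if_neg (by simp)]
  refine ⟨fun hev => ?_, fun _ => ?_⟩
  · have e1 : (s - v₀).1 = s.1 - v₀.1 := rfl
    have e2 : (s - v₀).2 = s.2 - v₀.2 := rfl
    obtain ⟨y, y1, y2, y3⟩ := wr_PN (k := P.k) h.poly h.encl hN (by omega) h1 h2
      (by rw [← hs, e1, e2]; omega)
    refine ⟨Int.even_iff.2 hev, y + v₀, ?_, ?_, ?_⟩
    · rw [mem_dom, add_sub_cancel_right]
      exact y1
    · show QT.ext N v₀ P (y + v₀) = true
      unfold QT.ext
      rw [add_sub_cancel_right]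
      exact y2
    · rw [← hs] at y3
      obtain ⟨y4, y5⟩ := y3
      rw [e1] at y4
      rw [e2] at y5
      refine ⟨?_, ?_⟩
      · simp only [Prod.fst_add]; omega
      · simp only [Prod.snd_add]; omega
  · rintro ⟨i', b1, b2, b3⟩
    have h3 : PN P.q N i = PN P.q N i' := by rw [← hs, ← b3, add_sub_cancel_right]
    have h4 := PN_inj (by omega) h.poly h3
    rw [ZMod.natCast_eq_natCast_iff'] at h4
    rw [Nat.mod_eq_of_lt (by omega)] at h4
    rcases Nat.lt_or_ge i' (P.m * N) with h5 | h5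
    · rw [Nat.mod_eq_of_lt h5] at h4
      omega
    · have h6 : i' = P.m * N := by omega
      rw [h6, Nat.mod_self] at h4
      omega

end Vale.Agent.P167.H259.S
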