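import Vale.Agent.P167.SG.Cls7
import Vale.Agent.P167.H397.K.Frm
import Vale.Agent.P167.H713.Q.SeamD

/-!
# P167, general `q`, [SEAM-34]: the connected sets seen from the mark, the field `s3`

The base square is near the line; the seen sets are joined to the half box `C₀` above the line near
the target, which contains a point with a deep position.
* `deep2` : the deep point in a small box;
* `seen_E` : the properties of the union of a seen set with `C₀`;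
* `s3_frm` : the seen points which see the side are near the target.
-/

set_option autoImplicit false

namespace Vale.Agent.P167.H259.S

open Set Metric Filter Topology
open Vale.Agent.P153.R2.R1 (Conf dinv)
open Vale.Agent.P153.R2.L1 (HH)
open Vale.Agent.P164 (loewnerDomain)
open Vale.Agent.P167.H756 (FD)
open Vale.Agent.P167.SG
open Vale.Agent.P167.H450 Vale.Agent.P167.H450.Out
open Vale.Agent.P167.H397.K (frm conn_frm jd_frm mem_frm dist_frm ball_frm)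
open Vale.Agent.P167.H713.Q (Dn Sd NearS Seen Io)

/-- The half box above the line. -/
def hb (xb r δ : ℝ) : Set ℂ := {w : ℂ | w ∈ Bf xb r ∧ δ < w.im}

section

variable {ι : Type} {T R x3 xB τ κ x' xc ε η e ν X1 X3 : ℝ} {ψ : ℂ → ℂ} {W : ℝ → ℝ}
    {t σ xb rf cg δ r₀ ρ r' ℓ s₂ : ℝ} {Gt IN : Set ℂ} {x₁ tp : ℂ} {K : ι → Set ℂ}
    (H : Sat T R x3 xB τ κ x' xc ε η e ν X1 X3 ψ W t σ xb rf cg δ r₀ ρ r' ℓ s₂ Gt IN x₁ tp K)
include H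

/-- The deep point in a small box. -/
theorem deep2 {X4 rb : ℝ} (h8 : 8 * R ≤ X4) (h64 : 64 * T ≤ X4 ^ 2) (hκ : κ ≤ 1 - ρb X4)
    (h34 : X3 ≤ X4) (hrb : rb ≤ rf) (hnear : ∀ z ∈ HH, X4 ≤ ‖z‖ → ψ z ∈ Bf xb rb) :
    ∃ xs ∈ ψ '' loewnerDomain W t, xs ∈ hb xb rb δ ∧ ‖dinv (FD ψ W t) xs‖ ≤ 1 - κ := by
  have C := H.cst
  have hε := C.hε
  have hν := C.hν
  have he := C.he
  have hℓ := H.hℓ
  have hδ := H.flt.hδ
  have hδℓ := H.hδℓ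
  have h40 := H.h40
  have hrf0 := H.flt.hrf
  have hrf := H.hrf
  have hX40 : 0 < X4 := (H.flt.hX1.trans_le H.flt.hX3).trans_le h34
  have hI : ((X4 : ℂ) * Complex.I) ∈ HH := by
    show 0 < ((X4 : ℂ) * Complex.I).im
    simpa using hX40
  have hnI : ‖(X4 : ℂ) * Complex.I‖ = X4 := by
    rw [norm_mul, Complex.norm_I, mul_one, Complex.norm_real, Real.norm_of_nonneg hX40.le]
  have hdI := (H.drv.base hX40 h8 h64).1
  have hpI := pos_base H.drv hX40 h8 h64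
  obtain ⟨xs, hxs⟩ : ∃ xs, xs = ψ ((X4 : ℂ) * Complex.I) := ⟨_, rfl⟩
  have hxsD : xs ∈ ψ '' loewnerDomain W t := ⟨_, hdI, hxs.symm⟩
  have hxsp : dinv (FD ψ W t) xs = pos W t ((X4 : ℂ) * Complex.I) := by rw [hxs]; exact H.dinv_ψ hdI
  have hxsb : xs ∈ Bf xb rb := by rw [hxs]; exact hnear _ hI (by rw [hnI])
  have hg2 := C.g2
  have hxsn : ‖dinv (FD ψ W t) xs‖ ≤ 1 - κ := by rw [hxsp]; linarith
  refine ⟨xs, hxsD, ⟨hxsb, ?_⟩, hxsn⟩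
  by_contra hcon
  push Not at hcon
  have hlo := H.flt.low' H.drv H.h4 H.h16 hxsD (bf_mono hrb hxsb)
  obtain ⟨q, hq⟩ : ∃ q : ℂ, q = ⟨xs.re, -δ⟩ := ⟨_, rfl⟩
  have hqr : q.re = xs.re := by rw [hq]
  have hqi : q.im = -δ := by rw [hq]
  have hqb : q ∈ Bf xb rf := by
    refine ⟨by rw [hqr]; exact lt_of_lt_of_le hxsb.1 hrb, ?_⟩
    rw [hqi, abs_neg, abs_of_pos hδ]
    linarith
  have hqD : q ∉ ψ '' loewnerDomain W t := fun h => by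
    have := H.flt.low' H.drv H.h4 H.h16 h hqb
    rw [hqi] at this
    exact lt_irrefl _ this
  have hqd : dist q xs ≤ 3 * ℓ := by
    rw [dist_eq_norm]
    refine (Complex.norm_le_abs_re_add_abs_im _).trans ?_
    rw [Complex.sub_re, Complex.sub_im]
    have h1 : |q.re - xs.re| ≤ 0 := by rw [hqr]; simp
    have h2 : |q.im - xs.im| ≤ 2 * δ := abs_le.2 ⟨by rw [hqi]; linarith, by rw [hqi]; linarith⟩
    linarith
  have := H.sit.bdy xs (by rw [H.img]; exact hxsD) q (by rw [H.img]; exact hqD) hqd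
  linarith

/-- The half box is in the domain. -/
theorem hb_dom {rb : ℝ} (hrb : rb ≤ rf) : hb xb rb δ ⊆ ψ '' loewnerDomain W t := fun w hw =>
  H.flt.dom_of H.drv H.h4 H.h16 (H.flt.up w (bf_mono hrb hw.1) hw.2) (bf_mono hrb hw.1)

/-- **The union of a set which meets the half box with the half box.** -/
theorem union_E {X4 rb : ℝ} (h8 : 8 * R ≤ X4) (h64 : 64 * T ≤ X4 ^ 2) (hκ : κ ≤ 1 - ρb X4)
    (h34 : X3 ≤ X4) (hrb : rb ≤ rf) (hnear : ∀ z ∈ HH, X4 ≤ ‖z‖ → ψ z ∈ Bf xb rb)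
    {E : Set ℂ} (hE : IsPreconnected E) (hED : E ⊆ ψ '' loewnerDomain W t)
    (hne : (E ∩ hb xb rb δ).Nonempty) :
    IsPreconnected (E ∪ hb xb rb δ) ∧ E ∪ hb xb rb δ ⊆ ψ '' loewnerDomain W t ∧
      ((E ∪ hb xb rb δ) ∩ FD ψ W t '' ball 0 (1 - ε / 2)).Nonempty ∧
      ((E ∪ hb xb rb δ) ∩ FD ψ W t '' ball 0 (1 - e)).Nonempty := by
  obtain ⟨xs, h1, h2, h3⟩ := deep2 H h8 h64 hκ h34 hrb hnear
  have C := H.cst
  have hε := C.hε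
  have hν := C.hν
  have he := C.he
  have hg2 := C.g2
  obtain ⟨x, hx1, hx2⟩ := hne
  refine ⟨IsPreconnected.union x hx1 hx2 hE half_box.1.isPreconnected,
    union_subset hED (hb_dom H hrb), ⟨xs, Or.inr h2, H.core_of_pos h1 (by linarith)⟩,
    ⟨xs, Or.inr h2, H.core_of_pos h1 (by linarith)⟩⟩

/-- **The seen points which see the side.** -/
theorem s3_E {X4 rb : ℝ} (h8 : 8 * R ≤ X4) (h64 : 64 * T ≤ X4 ^ 2) (hκ : κ ≤ 1 - ρb X4)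
    (h34 : X3 ≤ X4) (hrb : rb ≤ rf) (hnear : ∀ z ∈ HH, X4 ≤ ‖z‖ → ψ z ∈ Bf xb rb)
    (hup : hb xb rb δ ⊆ Ug (FD ψ W t) σ ε (τ / 2) xc (fun i => dinv (FD ψ W t) '' K i))
    {E : Set ℂ} (hE : IsPreconnected E) (hED : E ⊆ ψ '' loewnerDomain W t)
    (hne : (E ∩ hb xb rb δ).Nonempty)
    (hEP : ∀ x ∈ E,
      x ∈ closure (Pm ℓ (Ug (FD ψ W t) σ ε (τ / 2) xc (fun i => dinv (FD ψ W t) '' K i))) ∨
      ∃ u ∈ Ug (FD ψ W t) σ ε (τ / 2) xc (fun i => dinv (FD ψ W t) '' K i), dist x u ≤ 12 * ℓ)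
    {y z : ℂ} (hy : y ∈ E) (hz : z ∈ IN) (hj : Jd (ψ '' loewnerDomain W t) ρ y z) :
    y ∈ Bf xb (rf / 4) := by
  obtain ⟨a1, a2, a3, -⟩ := union_E H h8 h64 hκ h34 hrb hnear hE hED hne
  refine H.s3_box a1 a2 ?_ a3 (Or.inl hy) hz hj
  rintro x (hx | hx)
  · exact hEP x hx
  · refine Or.inr ⟨x, hup hx, ?_⟩
    rw [dist_self]
    have := H.hℓ
    linarith

end

section

variable {ι : Type} {T R x3 xB τ κ x' xc ε η e ν X1 X3 : ℝ} {ψ : ℂ → ℂ} {W : ℝ → ℝ}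
    {t σ xb rf cg δ₀ r₀ ρ r' ℓ s₂ : ℝ} {Gt IN : Set ℂ} {x₁ tp : ℂ} {K : ι → Set ℂ}
    (H : Sat T R x3 xB τ κ x' xc ε η e ν X1 X3 ψ W t σ xb rf cg δ₀ r₀ ρ r' ℓ s₂ Gt IN x₁ tp K)
    {n : ℕ} {p : ZMod n → ℤ × ℤ} {k : ℕ} {S : Finset (ℤ × ℤ)} {A : Finset (Sym2 (ℤ × ℤ))}
    {j : ℕ} {δ : ℝ} {c : Bool} {v₁ x₀ : ℤ × ℤ} {Pm' O : Set ℂ} {X : Set ℂ} {rb : ℝ}

/-- The seen sets in the frame. -/
theorem seen_frm (hD : ψ '' loewnerDomain W t = frm δ v₁ '' Dn p k S A j δ)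
    (hx0 : ∀ w ∈ Io δ x₀, frm δ v₁ w ∈ hb xb rb δ₀)
    (hcl : ∀ z ∈ closure Pm', frm δ v₁ z ∈
      closure (Pm ℓ (Ug (FD ψ W t) σ ε (τ / 2) xc (fun i => dinv (FD ψ W t) '' K i))) ∨
      ∃ u ∈ Ug (FD ψ W t) σ ε (τ / 2) xc (fun i => dinv (FD ψ W t) '' K i),
        dist (frm δ v₁ z) u ≤ 12 * ℓ)
    (hX : Seen (Dn p k S A j δ) O Pm' δ x₀ X) :
    IsPreconnected (frm δ v₁ '' X) ∧ frm δ v₁ '' X ⊆ ψ '' loewnerDomain W t ∧
      (frm δ v₁ '' X ∩ hb xb rb δ₀).Nonempty ∧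
      ∀ x ∈ frm δ v₁ '' X,
        x ∈ closure (Pm ℓ (Ug (FD ψ W t) σ ε (τ / 2) xc (fun i => dinv (FD ψ W t) '' K i))) ∨
        ∃ u ∈ Ug (FD ψ W t) σ ε (τ / 2) xc (fun i => dinv (FD ψ W t) '' K i),
          dist x u ≤ 12 * ℓ := by
  obtain ⟨w, hw1, hw2⟩ := hX.base
  refine ⟨conn_frm.2 hX.conn, by rw [hD]; exact image_mono hX.sub,
    ⟨frm δ v₁ w, mem_image_of_mem _ hw1, hx0 w hw2⟩, ?_⟩
  rintro _ ⟨z, hz, rfl⟩
  exact hcl z (hX.cl hz)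

include H

/-- **The field `s3` in the frame.** -/
theorem s3_frm {X4 : ℝ} (h8 : 8 * R ≤ X4) (h64 : 64 * T ≤ X4 ^ 2) (hκ : κ ≤ 1 - ρb X4)
    (h34 : X3 ≤ X4) (hrb : rb ≤ rf) (hnear : ∀ z ∈ HH, X4 ≤ ‖z‖ → ψ z ∈ Bf xb rb)
    (hup : hb xb rb δ₀ ⊆ Ug (FD ψ W t) σ ε (τ / 2) xc (fun i => dinv (FD ψ W t) '' K i))
    (hD : ψ '' loewnerDomain W t = frm δ v₁ '' Dn p k S A j δ)
    (hIN : IN = frm δ v₁ '' Sd p k S A j δ c) (h6 : 6 * δ ≤ ρ)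
    (hx0 : ∀ w ∈ Io δ x₀, frm δ v₁ w ∈ hb xb rb δ₀)
    (hcl : ∀ z ∈ closure Pm', frm δ v₁ z ∈
      closure (Pm ℓ (Ug (FD ψ W t) σ ε (τ / 2) xc (fun i => dinv (FD ψ W t) '' K i))) ∨
      ∃ u ∈ Ug (FD ψ W t) σ ε (τ / 2) xc (fun i => dinv (FD ψ W t) '' K i),
        dist (frm δ v₁ z) u ≤ 12 * ℓ)
    (hX : Seen (Dn p k S A j δ) O Pm' δ x₀ X) {y : ℂ} (hy : y ∈ X)
    (hn : NearS (Dn p k S A j δ) (Sd p k S A j δ c) (6 * δ) y) :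
    frm δ v₁ y ∈ Bf xb (rf / 4) := by
  obtain ⟨a1, a2, a3, a4⟩ := seen_frm hD hx0 hcl hX
  obtain ⟨C, c1, c2, c3, c4, z, z1, z2⟩ := hn
  refine s3_E H h8 h64 hκ h34 hrb hnear hup a1 a2 a3 a4 (mem_image_of_mem _ hy)
    (z := frm δ v₁ z) (by rw [hIN]; exact mem_image_of_mem _ z2) ?_
  rw [hD]
  exact jd_mono (jd_frm.2 ⟨C, c1, c2, c3, c4, z1⟩) h6

end

end Vale.Agent.P167.H259.S
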