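import Vale.Agent.P167.H506.SHP.Inp
import Vale.Agent.P167.H259.S.S3

/-!
# P167, general `q`, [SEAM-34]: the field `s3` for the situation of one history

* `frm_vd` : the two frames;
* `hcl_cx` : the closed shape is in the closed outer polygon or near it;
* `x0_hb` : the base square is in the half box;
* `s3_cx` : the field `s3`: the seen points which see the side are in the box of the target.
-/

set_option autoImplicit false

namespace Vale.Agent.P167.H259.S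

open Set Metric Filter Topology
open Vale.Agent.P153.R2.R1 (Conf dinv)
open Vale.Agent.P153.R2.L1 (HH)
open Vale.Agent.P164 (loewnerDomain)
open Vale.Agent.P167.H756 (FD)
open Vale.Agent.P167.SG
open Vale.Agent.P167.H450 Vale.Agent.P167.H450.Out
open Vale.Agent.P167.H397.K (frm cont_frm)
open Vale.Agent.P167.H713.Q (Dn Sd NearS Seen Io Io_sub x0 frm_sq)
open Vale.Agent.P167.H446.G (Cst Hst psr vd Ku Ku_le Nn_le dl_pos emb)
open Vale.Agent.P167.H704.Shp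
open Vale.Agent.P167.H632G (ShD tau)
open Vale.Agent.P167.H506.SHP (PmU)
open Vale.Agent.P167.E6 (pt)
open Vale.Agent.P167.H411 (Set6)

/-- The two frames. -/
theorem frm_vd {n : ℕ} (p : ZMod n → ℤ × ℤ) (k : ℕ) (L s δ : ℝ) (z : ℂ) :
    frm δ (vd p k L s δ) z = frm δ (v1 p k L s δ) z + tau (lb s δ) (Ku L s) := by
  unfold frm v1 tau lb
  apply Complex.ext
  · simp only [Complex.add_re, Complex.neg_re, Complex.re_ofReal_mul, Complex.ofReal_re, pt]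
    push_cast
    ring
  · simp only [Complex.add_im, Complex.neg_im, Complex.im_ofReal_mul, Complex.ofReal_im, pt]
    ring

section

variable {C : Cst} {K : Kst} {δ : ℕ → ℝ} {N k : ℕ → ℕ} {p : ∀ n, ZMod (N n) → ℤ × ℤ}
  {S : ℕ → Finset (ℤ × ℤ)} {ψn : ℕ → ℂ → ℂ} {s : ℝ} {n : ℕ} {A : Hst} {j : ℕ} {c : Bool} {O : Obj}

/-- The closed shape. -/
theorem hcl_cx (h : Cx C K δ N k p S ψn s n A j c O) {z : ℂ}
    (hz : z ∈ closure (PmU (δ n) (vd (p n) (k n) C.Ld s (δ n)) (H446.G.Nn s (δ n)) O.P)) :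
    frm (δ n) (v1 (p n) (k n) C.Ld s (δ n)) z ∈ closure (P1 C K δ N k p S ψn s n A j c O.Th) ∨
      (frm (δ n) (v1 (p n) (k n) C.Ld s (δ n)) z ∈ sqr (lb s (δ n)) (H450.ShpL.Gf O.pc O.i) ∧
      ∃ u ∈ U1 C K δ N k p S ψn s n A j c O.Th,
        dist (frm (δ n) (v1 (p n) (k n) C.Ld s (δ n)) z) u ≤ 6 * lb s (δ n)) := by
  have hℓ : 0 < lb s (δ n) := h.shd.hℓ
  have e5 : lb s (δ n) / 5 = H446.G.dl (δ n) * H446.G.Nn s (δ n) := by unfold lb; ring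
  have h1 : frm (δ n) (vd (p n) (k n) C.Ld s (δ n)) z ∈
      closure (emb (H446.G.dl (δ n) * H446.G.Nn s (δ n)) O.P) := by
    have h2 : closure (frm (δ n) (vd (p n) (k n) C.Ld s (δ n)) ⁻¹'
        (emb (H446.G.dl (δ n) * H446.G.Nn s (δ n)) O.P)) ⊆ _ :=
      (cont_frm (δ n) (vd (p n) (k n) C.Ld s (δ n))).closure_preimage_subset _
    exact h2 hz
  rw [frm_vd, ← e5] at h1
  rcases h.shd.sup h1 with h2 | h2
  · exact Or.inl h2
  · right
    refine ⟨h2, ?_⟩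
    have h3 := h.shd.gf h2
    obtain ⟨⟨G, hG, heG⟩, -⟩ := frontier_Pm hℓ h.isMk.fr
    obtain ⟨u, hu, huU⟩ := hG
    have h4 : dist u O.e' ≤ 3 * lb s (δ n) := dist_le_of_bk hu (sqr_subset_bk hℓ heG)
    refine ⟨u, huU, ?_⟩
    have := dist_triangle_right (frm (δ n) (v1 (p n) (k n) C.Ld s (δ n)) z) u O.e'
    linarith

/-- The base square is in the half box. -/
theorem x0_hb (h : Cx0 C K δ N k p S ψn s n A j c O) (hC : C.Sm (K.rc / 8)) (hδ : 0 < δ n)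
    (hs : 0 < s) (hN : 8 ≤ H446.G.Nn s (δ n)) {w : ℂ}
    (hw : w ∈ Io (δ n) (x0 (H446.G.Nn s (δ n)) (vd (p n) (k n) C.Ld s (δ n)))) :
    frm (δ n) (v1 (p n) (k n) C.Ld s (δ n)) w ∈
      hb (lb s (δ n) / 2) K.rc (3 * H446.G.dl (δ n)) := by
  obtain ⟨⟨a1, a2⟩, a3, a4⟩ := frm_sq hδ (v₁ := v1 (p n) (k n) C.Ld s (δ n)) (Io_sub hδ _ hw)
  have hdl := dl_pos hδ
  have hm := hC.m_pos
  have hm1 := hC.m_Ld
  have hm2 := hC.Ld_Lc
  have hm3 := hC.Lc_le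
  have hLd : 0 ≤ C.Ld := by linarith
  have hK := Ku_le hLd hs
  have hun := Nn_le hs hδ
  have hs2 := h.s2
  have hN8 : (8 : ℝ) ≤ (H446.G.Nn s (δ n) : ℝ) := by exact_mod_cast hN
  have hK0 : (0 : ℝ) ≤ (Ku C.Ld s : ℝ) := by positivity
  have hun8 : 8 * H446.G.dl (δ n) ≤ H446.G.dl (δ n) * (H446.G.Nn s (δ n) : ℝ) := by nlinarith
  have e1 : ((x0 (H446.G.Nn s (δ n)) (vd (p n) (k n) C.Ld s (δ n))).1 : ℝ) -
      ((v1 (p n) (k n) C.Ld s (δ n)).1 : ℝ) =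
      -(((Ku C.Ld s : ℝ) - 2) * H446.G.Nn s (δ n)) := by
    unfold x0 v1
    simp only [Prod.fst_add, add_zero]
    push_cast
    ring
  have e2 : ((x0 (H446.G.Nn s (δ n)) (vd (p n) (k n) C.Ld s (δ n))).2 : ℝ) -
      ((v1 (p n) (k n) C.Ld s (δ n)).2 : ℝ) = (H446.G.Nn s (δ n) : ℝ) - 1 := by
    unfold x0 v1
    simp only [Prod.snd_add]
    push_cast
    ring
  rw [e1] at a1 a2
  rw [e2] at a3 a4
  have hKu : (Ku C.Ld s : ℝ) * (H446.G.dl (δ n) * (H446.G.Nn s (δ n) : ℝ)) ≤ K.rc / 8 := by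
    have h1 := mul_le_mul_of_nonneg_left hun hK0
    linarith
  have hKu0 : 0 ≤ (Ku C.Ld s : ℝ) * (H446.G.dl (δ n) * (H446.G.Nn s (δ n) : ℝ)) := by positivity
  refine ⟨⟨?_, ?_⟩, ?_⟩
  · rw [abs_lt]
    unfold lb
    constructor
    · nlinarith
    · nlinarith
  · rw [abs_lt]
    constructor
    · nlinarith
    · nlinarith
  · nlinarith

/-- **The field `s3`.** -/
theorem s3_cx (h : Cx C K δ N k p S ψn s n A j c O) (hK : K.Ok C) (hδ : 0 < δ n) (hs : 0 < s)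
    (hN : 8 ≤ H446.G.Nn s (δ n))
    (hD : D1 C δ N k p S ψn s n A j =
      frm (δ n) (v1 (p n) (k n) C.Ld s (δ n)) '' Dn (p n) (k n) (S n) A j (δ n))
    {OO X : Set ℂ} (hX : Seen (Dn (p n) (k n) (S n) A j (δ n)) OO
      (PmU (δ n) (vd (p n) (k n) C.Ld s (δ n)) (H446.G.Nn s (δ n)) O.P) (δ n)
      (x0 (H446.G.Nn s (δ n)) (vd (p n) (k n) C.Ld s (δ n))) X) {y : ℂ} (hy : y ∈ X)
    (hn : NearS (Dn (p n) (k n) (S n) A j (δ n)) (Sd (p n) (k n) (S n) A j (δ n) c) (6 * δ n) y) :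
    frm (δ n) (v1 (p n) (k n) C.Ld s (δ n)) y ∈ Bf (lb s (δ n) / 2) (K.rf / 4) := by
  have hsat := h.sat
  have hR := hK.X1R
  have hT := hK.X1T
  have hT0 := hK.T0
  have hR0 := hK.R0
  have h13 := hK.X13
  have h34 := hK.X34
  have hrcf := hK.rcf
  have hrc := hK.rc0
  have hX1 : 0 < K.X1 := hsat.flt.hX1
  have h14 : K.X1 ≤ K.X4 := h13.trans h34
  have hℓ : 0 < lb s (δ n) := h.shd.hℓ
  refine s3_frm hsat (X4 := K.X4) (rb := K.rc) (by linarith) ?_ hK.κ4 h34 (by linarith) ?_ ?_ hD rfl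
    ?_ (fun w hw => x0_hb h.toCx0 hK.sm hδ hs hN hw) ?_ hX hy hn
  · have : K.X1 ^ 2 ≤ K.X4 ^ 2 := by nlinarith
    linarith
  · exact fun z hz hz4 => bf_mono (by linarith) (h.near4 z hz hz4)
  · exact fun z hz => h.hup z hz.1 hz.2
  · have := h.δ1
    linarith
  · intro z hz
    rcases hcl_cx h hz with h1 | ⟨-, u, h1, h2⟩
    · exact Or.inl h1
    · exact Or.inr ⟨u, h1, by linarith⟩

/-- **`F_s3`.** -/
theorem f_s3 {Φ : (ℝ × ℝ) ≃ₜ (ℝ × ℝ)} {ψ : ℂ → ℂ} (H : Set6 Φ ψ δ N k p S ψn) :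
    H506.SHP.F_s3 δ N k p S ψn := by
  intro T R hT hR
  refine ⟨1, zero_lt_one, fun C K eT eR hK _ => ⟨1, zero_lt_one, fun s hs _ => ?_⟩⟩
  have hδ0 : ∀ n, 0 < δ n := fun n => (H.appr.1 n).1
  filter_upwards [H653.St.hst_st H hK.T0 hK.R0.le one_pos,
    (H446.G.tendsto_Nn hδ0 H.appr.2.1 hs).eventually_ge_atTop 8] with n g1 g2 A j hB c O hC X hX
    y hy hn
  obtain ⟨-, hD, -, -⟩ := g1 A j hB (v1 (p n) (k n) C.Ld s (δ n))
  exact s3_cx hC hK (hδ0 n) hs g2 hD hX hy hn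

end

end Vale.Agent.P167.H259.S
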