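import Vale.Agent.P167.H259.S.ArcL
import Vale.Agent.P167.H506.SHP.S4a

/-!
# P167, general `q`, [ARC-L]: the theorem
-/

set_option autoImplicit false

namespace Vale.Agent.P167.H259.S

open Set Metric Filter Topology
open Vale.Agent.P167.H411 (exn Set6)
open Vale.Agent.P167.H446.G (Cst Hst Bef)
open Vale.Agent.P167.H704.Shp
open Vale.Agent.P167.H506.SHP

variable {Φ : (ℝ × ℝ) ≃ₜ (ℝ × ℝ)} {ψ : ℂ → ℂ} {δ : ℕ → ℝ} {N k : ℕ → ℕ}
    {p : ∀ n, ZMod (N n) → ℤ × ℤ} {S : ℕ → Finset (ℤ × ℤ)} {ψn : ℕ → ℂ → ℂ}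

/-- The boundary sites of low position are on the pushed-in arc. -/
theorem inArc (H : Set6 Φ ψ δ N k p S ψn) : InArc δ N k p S ψn := by
  intro T R hT hR
  obtain ⟨ρI, h0, h1⟩ := ((bas H).and (dnH H)) T R hT hR
  refine ⟨ρI, h0, fun C K eT eR hK hr => ?_⟩
  obtain ⟨s₀, h2, h3⟩ := h1 C K eT eR hK hr
  refine ⟨s₀, h2, fun s hs hs' => ?_⟩
  filter_upwards [h3 s hs hs'] with n h4 A j hB c O hC v hv hv2 him
  obtain ⟨B, hN, -⟩ := h4 A j hB c O hC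
  exact in_arc hC hK B hN hv hv2 him

/-- **[ARC-L].** -/
theorem f_arcl (H : Set6 Φ ψ δ N k p S ψn) : ArcLn δ N k p S ψn := arcl_of H (inArc H)

end Vale.Agent.P167.H259.S
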