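import Vale.Agent.P167.SG.Cls7

/-!
# P167, general `q`, [ARC-L]: positions near the points which see the side

The points of `U` next to a point of the box of the target which sees the side have low positions.
-/

set_option autoImplicit false

namespace Vale.Agent.P167.H259.S

open Set Metric Filter Topology
open Vale.Agent.P153.R2.R1 (Conf dinv)
open Vale.Agent.P164 (loewnerDomain)
open Vale.Agent.P167.H756 (FD)
open Vale.Agent.P167.SG
open Vale.Agent.P167.H450 Vale.Agent.P167.H450.Out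

variable {ι : Type} {T R x3 xB τ κ x' xc ε η e ν X1 X3 : ℝ} {ψ : ℂ → ℂ} {W : ℝ → ℝ}
    {t σ xb rf cg δ r₀ ρ r' ℓ s₂ : ℝ} {Gt IN : Set ℂ} {x₁ tp : ℂ} {K : ι → Set ℂ}
    (H : Sat T R x3 xB τ κ x' xc ε η e ν X1 X3 ψ W t σ xb rf cg δ r₀ ρ r' ℓ s₂ Gt IN x₁ tp K)
include H

/-- **Low positions.** -/
theorem him_l {y z y₀ : ℂ} (hyD : y ∈ ψ '' loewnerDomain W t) (hyb : y ∈ Bf xb (rf / 4))
    (hz : z ∈ IN) (hj : Jd (ψ '' loewnerDomain W t) ρ y z) (hy₀ : dist y y₀ ≤ ℓ)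
    {u : ℂ} (hu : u ∈ Ug (FD ψ W t) σ ε (τ / 2) xc (fun i => dinv (FD ψ W t) '' K i))
    (hd : dist u y₀ ≤ 12 * ℓ) : σ * (dinv (FD ψ W t) u).im ≤ τ := by
  have hℓ := H.hℓ
  have h40 := H.h40
  have hδℓ := H.hδℓ
  have hδ := H.flt.hδ
  have hrf := H.hrf
  have hrf0 := H.flt.hrf
  have g1 := H.cst.g1
  have he := H.cst.he
  have hν := H.cst.hν
  have huD : u ∈ ψ '' loewnerDomain W t := by
    have := H.sit.sub hu
    rwa [H.img] at this
  have hdu : dist y u ≤ 13 * ℓ := by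
    have := dist_triangle_right y u y₀
    linarith
  have h1 := H.flt.join H.drv H.h4 H.h16 hyD huD (bf_mono (by linarith) hyb)
    (by linarith : 0 < 13 * ℓ) hdu (by linarith)
  have h2 : Jd (ψ '' loewnerDomain W t) (2 * r₀) u y :=
    jd_symm h1 hdu (by linarith)
  have h3 := H.sit.close' (H.sit.sub hu) (v := y) (by rw [H.img]; exact h2)
  obtain ⟨ω, w1, w2, w3⟩ := H.see y z hj hz
  have h4 := H.sit.im_dist (w := dinv (FD ψ W t) u) (w' := dinv (FD ψ W t) y)
  have h5 := H.sit.im_dist (w := dinv (FD ψ W t) y) (w' := ω)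
  linarith

end Vale.Agent.P167.H259.S
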