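import Vale.Agent.P167.H259.S.CxS3
import Vale.Agent.P167.H259.S.L
import Vale.Agent.P167.H506.SHP.Inp

/-!
# P167, general `q`, [ARC-L]: the boundary sites next to the points which see the side

* `dnH` : the domain in the frame;
* `InArc` : the boundary sites of low position are on the right arc (638);
* `arcl_of` : [ARC-L] from `InArc`.
-/

set_option autoImplicit false

namespace Vale.Agent.P167.H259.S

open Set Metric Filter Topology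
open Vale.Agent.P153.R2.R1 (Conf dinv)
open Vale.Agent.P153.R2.L1 (HH)
open Vale.Agent.P164 (loewnerDomain)
open Vale.Agent.P167.H756 (FD)
open Vale.Agent.P167.H411 (exn Set6)
open Vale.Agent.P167.QT (arcc)
open Vale.Agent.P167.SG
open Vale.Agent.P167.H450 Vale.Agent.P167.H450.Out
open Vale.Agent.P167.H397.K (frm cont_frm dist_frm jd_frm)
open Vale.Agent.P167.H713.Q (Dn Sd NearS Seen Io Io_sub x0 frm_sq Arc del_dl)
open Vale.Agent.P167.H446.G (Cst Hst psr vd Ku Ku_le Nn_le dl_pos emb Bef)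
open Vale.Agent.P167.H704.Shp
open Vale.Agent.P167.H632G (ShD tau)
open Vale.Agent.P167.H506.SHP
open Vale.Agent.P167.H161 (zp)
open Vale.Agent.P167.FKA (Cor)
open Vale.Agent.P167.H72.SD (Wr)
open Vale.Agent.P167.E6 (pt)

section

variable {C : Cst} {K : Kst} {δ : ℕ → ℝ} {N k : ℕ → ℕ} {p : ∀ n, ZMod (N n) → ℤ × ℤ}
  {S : ℕ → Finset (ℤ × ℤ)} {ψn : ℕ → ℂ → ℂ} {s : ℝ} {n : ℕ} {A : Hst} {j : ℕ} {c : Bool} {O : Obj}

/-- **Low positions near the points which see the side.** -/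
theorem him_cx (h : Cx0 C K δ N k p S ψn s n A j c O) (hδ : 0 < δ n)
    (hN : 8 ≤ H446.G.Nn s (δ n))
    (hD : D1 C δ N k p S ψn s n A j =
      frm (δ n) (v1 (p n) (k n) C.Ld s (δ n)) '' Dn (p n) (k n) (S n) A j (δ n))
    {y : ℂ} (hy : y ∈ Dn (p n) (k n) (S n) A j (δ n))
    (hyb : frm (δ n) (v1 (p n) (k n) C.Ld s (δ n)) y ∈ Bf (lb s (δ n) / 2) (K.rf / 4))
    (hn : NearS (Dn (p n) (k n) (S n) A j (δ n)) (Sd (p n) (k n) (S n) A j (δ n) c) (6 * δ n) y)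
    {v : ℤ × ℤ} (hv : dist y (zp (δ n) v) ≤ 6 * δ n) {u : ℂ}
    (hu : u ∈ U1 C K δ N k p S ψn s n A j c O.Th)
    (hd : dist u (frm (δ n) (v1 (p n) (k n) C.Ld s (δ n)) (zp (δ n) v)) ≤ 12 * lb s (δ n)) :
    H653.St.sg c * (dinv (F1 C δ N k p S ψn s n A j) u).im ≤ K.τ := by
  obtain ⟨C', c1, c2, c3, c4, z, z1, z2⟩ := hn
  have hdl := dl_pos hδ
  have h2 := del_dl hδ
  have hN8 : (8 : ℝ) ≤ (H446.G.Nn s (δ n) : ℝ) := by exact_mod_cast hN
  have hD' : psr (δ n) (v1 (p n) (k n) C.Ld s (δ n)) (ψn n) ''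
      loewnerDomain ((exn δ N k p S ψn n).W A) ((exn δ N k p S ψn n).c A j) =
      frm (δ n) (v1 (p n) (k n) C.Ld s (δ n)) '' Dn (p n) (k n) (S n) A j (δ n) := hD
  refine him_l h.sat (z := frm (δ n) (v1 (p n) (k n) C.Ld s (δ n)) z)
    (by rw [hD']; exact mem_image_of_mem _ hy) hyb
    (mem_image_of_mem _ z2) ?_ ?_ hu hd
  · rw [hD']
    refine jd_mono (jd_frm.2 ⟨C', c1, c2, c3, c4, z1⟩) ?_
    have := h.δ1
    linarith
  · rw [dist_frm]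
    refine hv.trans ?_
    unfold lb
    nlinarith

end

section

variable (δ : ℕ → ℝ) (N k : ℕ → ℕ) (p : ∀ n, ZMod (N n) → ℤ × ℤ) (S : ℕ → Finset (ℤ × ℤ))
  (ψn : ℕ → ℂ → ℂ)

/-- The boundary sites of low position, off the box of the target, are on the pushed-in arc (638). -/
def InArc : Prop := AllH δ N k p S ψn fun C K s n A j c O =>
  ∀ v : ℤ × ℤ, zp (δ n) v ∈ frontier (PmO C δ N k p s n O) →
    frm (δ n) (v1 (p n) (k n) C.Ld s (δ n)) (zp (δ n) v) ∉ Bf (lb s (δ n) / 2) (K.rc / 2) →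
    (∀ u ∈ U1 C K δ N k p S ψn s n A j c O.Th,
      dist u (frm (δ n) (v1 (p n) (k n) C.Ld s (δ n)) (zp (δ n) v)) ≤ 12 * lb s (δ n) →
      H653.St.sg c * (dinv (F1 C δ N k p S ψn s n A j) u).im ≤ K.τ) →
    Arc c (Dm C δ N k p s n O) (Zt C δ N k p s n O)
      (Wr (Dm C δ N k p s n O) (Zt C δ N k p s n O))
      (arcc (H446.G.Nn s (δ n)) (vd (p n) (k n) C.Ld s (δ n)) O.P) v

/-- **[ARC-L].** -/
def ArcLn : Prop := AllH δ N k p S ψn fun C K s n A j c O =>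
  ∀ y ∈ Dn (p n) (k n) (S n) A j (δ n),
    frm (δ n) (v1 (p n) (k n) C.Ld s (δ n)) y ∈ Bf (lb s (δ n) / 2) (K.rf / 4) →
    NearS (Dn (p n) (k n) (S n) A j (δ n)) (Sd (p n) (k n) (S n) A j (δ n) c) (6 * δ n) y →
    ∀ v : ℤ × ℤ, dist y (zp (δ n) v) ≤ 6 * δ n →
    frm (δ n) (v1 (p n) (k n) C.Ld s (δ n)) (zp (δ n) v) ∉ Bf (lb s (δ n) / 2) (K.rc / 2) →
    (∃ x ∈ Dm C δ N k p s n O, Cor x v) → (∃ x, x ∉ Dm C δ N k p s n O ∧ Cor x v) →
    Arc c (Dm C δ N k p s n O) (Zt C δ N k p s n O)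
      (Wr (Dm C δ N k p s n O) (Zt C δ N k p s n O))
      (arcc (H446.G.Nn s (δ n)) (vd (p n) (k n) C.Ld s (δ n)) O.P) v

end

section

variable {Φ : (ℝ × ℝ) ≃ₜ (ℝ × ℝ)} {ψ : ℂ → ℂ} {δ : ℕ → ℝ} {N k : ℕ → ℕ}
    {p : ∀ n, ZMod (N n) → ℤ × ℤ} {S : ℕ → Finset (ℤ × ℤ)} {ψn : ℕ → ℂ → ℂ}

/-- The domain in the frame, and the number of squares of a unit. -/
theorem dnH (H : Set6 Φ ψ δ N k p S ψn) :
    AllH δ N k p S ψn fun C _ s n A j _ _ => 8 ≤ H446.G.Nn s (δ n) ∧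
      D1 C δ N k p S ψn s n A j =
        frm (δ n) (v1 (p n) (k n) C.Ld s (δ n)) '' Dn (p n) (k n) (S n) A j (δ n) := by
  intro T R hT hR
  refine ⟨1, zero_lt_one, fun C K eT eR hK _ => ⟨1, zero_lt_one, fun s hs _ => ?_⟩⟩
  have h1 := H446.G.tendsto_Nn (fun n => (H.appr.1 n).1) H.appr.2.1 hs
  filter_upwards [H653.St.hst_st H hK.T0 hK.R0.le zero_lt_one, h1.eventually_ge_atTop 8]
    with n h2 h3 A j hB c O _
  exact ⟨h3, (h2 A j hB (v1 (p n) (k n) C.Ld s (δ n))).2.1⟩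

/-- **[ARC-L] from the arcs of the boundary sites of low position.** -/
theorem arcl_of (H : Set6 Φ ψ δ N k p S ψn) (h : InArc δ N k p S ψn) : ArcLn δ N k p S ψn := by
  refine (((h.and (dnH H)).and (bas H)).and AllH.cx).mono ?_
  rintro C K s n A j c O ⟨⟨⟨h1, h2, h3⟩, B⟩, hC⟩ y hy hyb hn v hv hv2 hx hx'
  exact h1 v ((zp_frontier B.δ0 (by omega)).2 ⟨hx, hx'⟩) hv2 fun u hu hd =>
    him_cx hC.toCx0 B.δ0 h2 h3 hy hyb hn hv hu hd

end

end Vale.Agent.P167.H259.S
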