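import Vale.Agent.P167.XDL.Enl
import Vale.Agent.P167.H718.Dob
import Vale.Agent.P167.H72.SD.Lat

/-!
# P167, general `q`, [SEAM-34]: boundary sites of the enlargement which are close

Two boundary sites of the `N`-fold enlargement of a lattice polygon with sup distance at most one have
indices which differ by at most two.
-/

set_option autoImplicit false

namespace Vale.Agent.P167.H259.S

open Vale.Agent.P167.E6 (IsPolygon Encloses dir face)
open Vale.Agent.P167.H825 (dirOf enl pdir)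
open Vale.Agent.P167.Enl (PN PN_lin dir0 dir1 dir2 dir3 pdir_step)

variable {l : ℕ} {p : ZMod l → ℤ × ℤ} {N : ℕ}

/-- Two sides of the enlargement which are close have a vertex in common. -/
theorem side_near {n : ℕ} (hn : 4 ≤ n) {a a' : ℤ × ℤ} {j j' : ℕ} (hj : j < n) (hj' : j' < n)
    {d d' : Fin 4} {e : ℤ × ℤ} (he1 : |e.1| ≤ 1) (he2 : |e.2| ≤ 1)
    (h : (n : ℤ) • a + (j : ℤ) • dir d = (n : ℤ) • a' + (j' : ℤ) • dir d' + e) :
    a = a' ∨ (a' = a + dir d ∧ n + j' ≤ j + 2) ∨ (a = a' + dir d' ∧ n + j ≤ j' + 2) ∨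
      a + dir d = a' + dir d' ∨ (a' = a + dir d ∧ a = a' + dir d') := by
  have key : ∀ X X' c : ℤ, (n : ℤ) * X = (n : ℤ) * X' + c → |c| < 2 * n →
      (X = X' ∧ c = 0) ∨ (X = X' + 1 ∧ c = n) ∨ (X = X' - 1 ∧ c = -n) := by
    intro X X' c h1 h2
    have h3 : (n : ℤ) * (X - X') = c := by rw [mul_sub]; omega
    have hn' : (0 : ℤ) < n := by omega
    rw [abs_lt] at h2
    have h4 : X - X' < 2 := by
      by_contra hc
      push Not at hc
      nlinarith
    have h5 : -2 < X - X' := by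
      by_contra hc
      push Not at hc
      nlinarith
    have h6 : X - X' = 0 ∨ X - X' = 1 ∨ X - X' = -1 := by omega
    rcases h6 with h6 | h6 | h6
    · left
      rw [h6] at h3
      omega
    · right; left
      rw [h6] at h3
      omega
    · right; right
      rw [h6] at h3
      omega
  obtain ⟨X, Y⟩ := a
  obtain ⟨X', Y'⟩ := a'
  obtain ⟨f, g⟩ := e
  have e1 := congrArg Prod.fst h
  have e2 := congrArg Prod.snd h
  simp only [Prod.fst_add, Prod.snd_add, Prod.smul_mk, smul_eq_mul, Prod.smul_fst,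
    Prod.smul_snd] at e1 e2
  rw [abs_le] at he1 he2
  simp only at he1 he2
  fin_cases d <;> fin_cases d' <;>
    simp only [Fin.zero_eta, Fin.mk_one, Fin.reduceFinMk, dir0, dir1, dir2, dir3, mul_one, mul_zero,
      add_zero, mul_neg, Prod.mk.injEq, Prod.mk_add_mk] at e1 e2 ⊢ <;>
    (rcases key X X' ((n : ℤ) * X - (n : ℤ) * X') (by ring) (by rw [abs_lt]; omega) with
      ⟨h1, h2⟩ | ⟨h1, h2⟩ | ⟨h1, h2⟩ <;>
     rcases key Y Y' ((n : ℤ) * Y - (n : ℤ) * Y') (by ring) (by rw [abs_lt]; omega) with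
      ⟨h3, h4⟩ | ⟨h3, h4⟩ | ⟨h3, h4⟩ <;> omega)

theorem zm_mul {a a' : ℕ} (h : (a : ZMod l) = a') (N : ℕ) :
    ((a * N : ℕ) : ZMod (l * N)) = ((a' * N : ℕ) : ZMod (l * N)) := by
  rw [ZMod.natCast_eq_natCast_iff] at h ⊢
  exact h.mul_right' N

/-- **Close boundary sites have close indices.** -/
theorem near_idx (hp : IsPolygon p) (hN : 4 ≤ N) {i i' : ℕ} {e : ℤ × ℤ} (he1 : |e.1| ≤ 1)
    (he2 : |e.2| ≤ 1) (h : PN p N i = PN p N i' + e) :
    ∃ c : ℤ, |c| ≤ 2 ∧ (i : ZMod (l * N)) = (i' : ZMod (l * N)) + (c : ZMod (l * N)) := by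
  have hN0 : 0 < N := by omega
  have hi := Nat.div_add_mod' i N
  have hr := Nat.mod_lt i hN0
  have hi' := Nat.div_add_mod' i' N
  have hr' := Nat.mod_lt i' hN0
  set a := i / N
  set r := i % N
  set a' := i' / N
  set r' := i' % N
  rw [← hi, ← hi', PN_lin hN0 hr, PN_lin hN0 hr'] at h
  have hz : (i : ZMod (l * N)) = ((a * N : ℕ) : ZMod (l * N)) + ((r : ℤ) : ZMod (l * N)) := by
    rw [← hi]; push_cast; ring
  have hz' : (i' : ZMod (l * N)) = ((a' * N : ℕ) : ZMod (l * N)) + ((r' : ℤ) : ZMod (l * N)) := by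
    rw [← hi']; push_cast; ring
  have same : (a : ZMod l) = a' → ∃ c : ℤ, |c| ≤ 2 ∧
      (i : ZMod (l * N)) = (i' : ZMod (l * N)) + (c : ZMod (l * N)) := by
    intro haa
    have hd : pdir p a = pdir p a' := by unfold pdir; rw [haa]
    refine ⟨(r : ℤ) - r', ?_, ?_⟩
    · rw [hd, haa] at h
      have h1 : (((r : ℤ) - r') : ℤ) • dir (pdir p a') = e := by
        rw [sub_smul]
        have := h
        rw [add_assoc] at this
        have h2 := add_left_cancel this
        rw [h2]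
        abel
      have e1 := congrArg Prod.fst h1
      have e2 := congrArg Prod.snd h1
      simp only [Prod.smul_fst, Prod.smul_snd, smul_eq_mul] at e1 e2
      rw [abs_le] at he1 he2 ⊢
      generalize pdir p a' = d at e1 e2
      fin_cases d <;> simp [dir] at e1 e2 <;> omega
    · rw [hz, hz', zm_mul haa N]
      push_cast
      ring
  rcases side_near hN hr hr' he1 he2 h with h1 | ⟨h1, h2⟩ | ⟨h1, h2⟩ | h1 | ⟨h1, h2⟩
  · exact same (hp.2.1 h1)
  · rw [← pdir_step hp] at h1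
    have h3 : (a' : ZMod l) = ((a + 1 : ℕ) : ZMod l) := by
      rw [hp.2.1 h1]; push_cast; rfl
    refine ⟨(r : ℤ) - r' - N, by rw [abs_le]; omega, ?_⟩
    rw [hz, hz', zm_mul h3 N]
    push_cast
    ring
  · rw [← pdir_step hp] at h1
    have h3 : (a : ZMod l) = ((a' + 1 : ℕ) : ZMod l) := by
      rw [hp.2.1 h1]; push_cast; rfl
    refine ⟨(r : ℤ) - r' + N, by rw [abs_le]; omega, ?_⟩
    rw [hz, hz', zm_mul h3 N]
    push_cast
    ring
  · rw [← pdir_step hp, ← pdir_step hp] at h1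
    exact same (add_right_cancel (hp.2.1 h1))
  · exfalso
    rw [← pdir_step hp] at h1 h2
    have h3 := hp.2.1 h1
    have h4 := hp.2.1 h2
    have h5 : ((2 : ℕ) : ZMod l) = 0 := by
      push_cast
      linear_combination -h3 - h4
    rw [ZMod.natCast_eq_zero_iff] at h5
    have := Nat.le_of_dvd (by norm_num) h5
    have := hp.1
    omega

/-- Indices which are equal modulo the length up to two. -/
theorem idx_eq {L i i' : ℕ} {c : ℤ} (h : (i : ZMod L) = (i' : ZMod L) + (c : ZMod L)) :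
    (L : ℤ) ∣ (i : ℤ) - i' - c := by
  rw [← ZMod.intCast_zmod_eq_zero_iff_dvd]
  push_cast
  rw [h]
  ring

end Vale.Agent.P167.H259.S
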