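import Vale.Agent.P167.H259.S.ArcF
import Vale.Agent.P167.H259.S.CxS3
import Vale.Agent.P167.H638.SM.S4
import Vale.Agent.P167.H469.Flb8
import Vale.Agent.P167.H264.FlS.Main

/-!
# P167, general `q`, [SHP-ASM]: the lattice relation of [SHP]

`s_inp : S_inp`, from the five fields (`F_s3`, `F_s4`, `F_fl1`, `F_fl2`, `F_wfl`).
-/

set_option autoImplicit false

namespace Vale.Agent.P167.H259.S

open Vale.Agent.P167.QT
open Vale.Agent.P167.H192

/-- **The lattice relation of [SHP].** -/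
theorem s_inp : H704.Shp.S_inp :=
  H506.SHP.s_inp_of fun _ _ _ _ _ _ _ _ H hSt =>
    ⟨f_s3 H, H638.SM.f_s4 H hSt, H469.Fl.f_fl1 H hSt,
      H264.FlS.f_fl2 H hSt (f_arcl H), H469.Fl.f_wfl H hSt⟩

end Vale.Agent.P167.H259.S
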